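import Vale.Agent.P032.S5.H80.Anti
import Vale.Agent.P032.S5.H585.Exc

/-!
# P032: D-points are isolated among the points with at least three colours

* `Irr.iso_sd` : two interior points `g1 ≠ g2` of exact `ab`-arcs of `S(z)` with sides (`Sd`): near `z` no
  other point has both colours `a`, `b` in its palette `Pal`.
* `Irr.dpt_iso` : `z` a two-pair point `ab|cd`: near `z` no other point has both `a`, `b` or both
  `c`, `d` in `Pal`.
* `Irr.dpt_two` : hence near `z` all other points have `T x ⊆ {x₁, x₂}`, `x₁ ∈ {a, b}`, `x₂ ∈ {c, d}`;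
  in particular `(T x).ncard ≤ 2`.
* `Irr.dpt_discrete`, `Irr.high_finite` : if all high points of a compact set are D-points, then
  there are finitely many of them.
-/

open Set Filter Topology Metric

noncomputable section

namespace Vale.Agent.P032.Six

variable {k : ℕ} {U : Fin k → Set ℂ} {T : ℂ → Set (Fin k)}

/-- near `z` the points with both colours are on `S(g)` -/
theorem Irr.on_sphere (h : Irr U T) {z g : ℂ} {a b : Fin k} (hg : Arc T z g {a, b})
    (hs : Sd U z g a b ∨ Sd U z g b a) :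
    ∀ᶠ x in 𝓝 z, a ∈ Pal U x → b ∈ Pal U x → dist x g = 1 := by
  rcases hs with hs | hs
  · have h1 := h.sd_center hg hs
    filter_upwards [h1] with x hx ha hb
    by_contra hne
    rcases lt_or_gt_of_ne hne with h2 | h2
    · exact (hx.2 h2) hb
    · exact (hx.1 h2) ha
  · have h1 := h.sd_center (a := b) (b := a) (by rw [pair_comm]; exact hg) hs
    filter_upwards [h1] with x hx ha hb
    by_contra hne
    rcases lt_or_gt_of_ne hne with h2 | h2
    · exact (hx.2 h2) ha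
    · exact (hx.1 h2) hb

/-- **isolation by an exact arc with sides** -/
theorem Irr.iso_sd (h : Irr U T) {z g1 g2 : ℂ} {a b : Fin k} (hne : g1 ≠ g2)
    (hg1 : Arc T z g1 {a, b}) (hg2 : Arc T z g2 {a, b})
    (hs1 : Sd U z g1 a b ∨ Sd U z g1 b a) (hs2 : Sd U z g2 a b ∨ Sd U z g2 b a) :
    ∀ᶠ x in 𝓝 z, x ≠ z → ¬ (a ∈ Pal U x ∧ b ∈ Pal U x) := by
  have h3 := Vale.Agent.P032.Carr.two_circles (z := g1) (z' := g2) (x := z) hne
    (by rw [dist_comm]; exact hg1.1) (by rw [dist_comm]; exact hg2.1)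
  filter_upwards [h.on_sphere hg1 hs1, h.on_sphere hg2 hs2, h3] with x h4 h5 h6 hx hab
  exact hx (h6 (h4 hab.1 hab.2) (h5 hab.1 hab.2))

theorem Irr.iso_ab (h : Irr U T) {z : ℂ} {a b c d : Fin k} (hz : DPt T z a b c d) :
    ∀ᶠ x in 𝓝 z, x ≠ z → ¬ (a ∈ Pal U x ∧ b ∈ Pal U x) := by
  obtain ⟨g1, hg1⟩ := hz.arc1
  obtain ⟨g2, hg2, hne, -⟩ := hg1.exists_off_line (y := g1)
  exact h.iso_sd hne.symm hg1 hg2 (h.sides hz hg1.1) (h.sides hz hg2.1)

/-- **a D-point is isolated**: near `z` no other point has a pair of `z` in its palette -/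
theorem Irr.dpt_iso (h : Irr U T) {z : ℂ} {a b c d : Fin k} (hz : DPt T z a b c d) :
    ∀ᶠ x in 𝓝 z, x ≠ z → ¬ (a ∈ Pal U x ∧ b ∈ Pal U x) ∧ ¬ (c ∈ Pal U x ∧ d ∈ Pal U x) := by
  filter_upwards [h.iso_ab hz, h.iso_ab hz.swap] with x h1 h2 hx
  exact ⟨h1 hx, h2 hx⟩

/-- near a D-point all other points have at most two colours, one of each pair -/
theorem Irr.dpt_two (h : Irr U T) {z : ℂ} {a b c d : Fin k} (hz : DPt T z a b c d) :
    ∀ᶠ x in 𝓝 z, x ≠ z → ∃ i ∈ ({a, b} : Set (Fin k)), ∃ j ∈ ({c, d} : Set (Fin k)),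
      T x ⊆ {i, j} := by
  filter_upwards [h.dpt_iso hz, h.nhd z] with x h1 h2 hx
  obtain ⟨h3, h4⟩ := h1 hx
  rw [hz.pal] at h2
  have h5 : ∀ i ∈ T x, i ∈ Pal U x := fun i hi => h.sub x hi
  have hi : ∃ i ∈ ({a, b} : Set (Fin k)), ∀ m ∈ T x, m ∈ ({a, b} : Set (Fin k)) → m = i := by
    by_cases ha : a ∈ T x
    · refine ⟨a, by simp, fun m hm hm2 => ?_⟩
      rcases hm2 with rfl | hm2
      · rfl
      · rw [mem_singleton_iff] at hm2
        subst hm2
        exact absurd ⟨h5 _ ha, h5 _ hm⟩ h3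
    · refine ⟨b, by simp, fun m hm hm2 => ?_⟩
      rcases hm2 with rfl | hm2
      · exact absurd hm ha
      · exact hm2
  have hj : ∃ j ∈ ({c, d} : Set (Fin k)), ∀ m ∈ T x, m ∈ ({c, d} : Set (Fin k)) → m = j := by
    by_cases hc : c ∈ T x
    · refine ⟨c, by simp, fun m hm hm2 => ?_⟩
      rcases hm2 with rfl | hm2
      · rfl
      · rw [mem_singleton_iff] at hm2
        subst hm2
        exact absurd ⟨h5 _ hc, h5 _ hm⟩ h4
    · refine ⟨d, by simp, fun m hm hm2 => ?_⟩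
      rcases hm2 with rfl | hm2
      · exact absurd hm hc
      · exact hm2
  obtain ⟨i, hi, hi2⟩ := hi
  obtain ⟨j, hj, hj2⟩ := hj
  refine ⟨i, hi, j, hj, fun m hm => ?_⟩
  have hm2 := h2 hm
  simp only [mem_insert_iff, mem_singleton_iff] at hm2
  by_cases hmab : m = a ∨ m = b
  · exact Or.inl (hi2 m hm hmab)
  · refine Or.inr (hj2 m hm ?_)
    show m = c ∨ m = d
    tauto

theorem Irr.dpt_card (h : Irr U T) {z : ℂ} {a b c d : Fin k} (hz : DPt T z a b c d) :
    ∀ᶠ x in 𝓝 z, x ≠ z → (T x).ncard ≤ 2 := by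
  filter_upwards [h.dpt_two hz] with x h1 hx
  obtain ⟨i, -, j, -, h2⟩ := h1 hx
  refine (Set.ncard_le_ncard h2 (Set.toFinite _)).trans ?_
  have h3 := Set.ncard_insert_le i ({j} : Set (Fin k))
  rw [Set.ncard_singleton] at h3
  exact h3

/-- the set of the D-points is discrete: every D-point has a neighbourhood without other D-points,
and without other points with three or more colours -/
theorem Irr.dpt_discrete (h : Irr U T) {z : ℂ} {a b c d : Fin k} (hz : DPt T z a b c d) :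
    ∃ r > 0, ∀ x, dist x z < r → x ≠ z → (T x).ncard ≤ 2 :=
  Metric.eventually_nhds_iff.1 (h.dpt_card hz) |>.imp fun _ h1 => ⟨h1.1, fun _ h2 => h1.2 h2⟩

/-- in a compact set in which all high points are D-points, there are finitely many of them -/
theorem Irr.high_finite (h : Irr U T) {K : Set ℂ} (hK : IsCompact K)
    (hD : ∀ z ∈ K, 4 ≤ (T z).ncard → ∃ a b c d, DPt T z a b c d) :
    {z | z ∈ K ∧ 4 ≤ (T z).ncard}.Finite := by
  by_contra hinf
  have hinf : {z | z ∈ K ∧ 4 ≤ (T z).ncard}.Infinite := hinf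
  obtain ⟨z, hzK, hacc⟩ := hinf.exists_accPt_of_subset_isCompact hK fun x hx => hx.1
  have hcl : IsClosed {x : ℂ | 4 ≤ (T x).ncard} := by
    rw [← isOpen_compl_iff, isOpen_iff_mem_nhds]
    intro x hx
    have hx : ¬ 4 ≤ (T x).ncard := hx
    filter_upwards [h.nhd x] with y hy
    have := Set.ncard_le_ncard hy (Set.toFinite _)
    show ¬ 4 ≤ (T y).ncard
    omega
  have h1 : ∃ᶠ x in 𝓝[≠] z, x ∈ {z | z ∈ K ∧ 4 ≤ (T z).ncard} := accPt_iff_frequently_nhdsNE.1 hacc
  have hz4 : 4 ≤ (T z).ncard := by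
    have h2 : ∃ᶠ x in 𝓝 z, x ∈ {x : ℂ | 4 ≤ (T x).ncard} :=
      (h1.filter_mono nhdsWithin_le_nhds).mono fun x hx => hx.2
    exact hcl.closure_subset (mem_closure_iff_frequently.2 h2)
  obtain ⟨a, b, c, d, hd⟩ := hD z hzK hz4
  have h3 : ∀ᶠ x in 𝓝[≠] z, (T x).ncard ≤ 2 := eventually_nhdsWithin_iff.2 (h.dpt_card hd)
  obtain ⟨x, hx1, hx2⟩ := (h1.and_eventually h3).exists
  have := hx1.2
  omega

end Vale.Agent.P032.Six
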