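import Vale.Agent.P032.H587.Pair
import Vale.Agent.P032.H587.Gen

/-!
# P032: lists of a generic point from the words of finitely many centres

For a centre `z` and a set `G` of good points of `S(z)` let `Sh z G` be the set of the points `q` such
that all common points of `S(z)` and `S(q)` are good.  If `G` is relatively open and dense in `S(z)`
(`Gd z G`), then `Sh z G` is open and dense (`Gd.isOpen`, `Gd.dense`).

* `gd_Kc` : `Gd z (Kc U z)` for the points of `S(z)` at which `Pal` is locally constant along `S(z)`;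
  `Mx.sh_pal` : for `q ∈ Sh z (Kc U z)`, `0 < dist q z < 2`, `p ∈ S(z) ∩ S(q)`:
  `Pal U p` and `Pal U q` are disjoint.
* `gd_Kt` : the same for `T`.
* `Ctr.gd_letter`, `Ctr.sh_letter` : the same for the letters of a four-coloured centre.
* `dense_params` : for finitely many open continuous maps `φ i : X → ℂ` all this holds on a
  dense open set of parameters, also for finitely many centres.
-/

open Set Filter Topology Metric

open scoped Pointwise

noncomputable section

namespace Vale.Agent.P032.Six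

variable {k : ℕ} {U : Fin k → Set ℂ} {T : ℂ → Set (Fin k)}

/-- `G` is relatively open and dense in `S(z)` -/
structure Gd (z : ℂ) (G : Set ℂ) : Prop where
  op : ∀ p, dist p z = 1 → p ∈ G → ∀ᶠ q in 𝓝[sphere z 1] p, q ∈ G
  de : ∀ p, dist p z = 1 → ∃ᶠ q in 𝓝[sphere z 1] p, q ∈ G

/-- all common points of the unit circles of `z` and of `q` are in `G` -/
def Sh (z : ℂ) (G : Set ℂ) : Set ℂ := {q | ∀ p, dist p z = 1 → dist p q = 1 → p ∈ G}

theorem Gd.closed {z : ℂ} {G : Set ℂ} (h : Gd z G) : IsClosed (sphere z 1 \ G) := by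
  rw [← isOpen_compl_iff, isOpen_iff_mem_nhds]
  intro p hp
  by_cases hpz : dist p z = 1
  · have hpG : p ∈ G := by
      by_contra hcon
      exact hp ⟨hpz, hcon⟩
    have h1 := eventually_nhdsWithin_iff.1 (h.op p hpz hpG)
    filter_upwards [h1] with q hq hq2
    exact hq2.2 (hq hq2.1)
  · have : (sphere z (1 : ℝ))ᶜ ∈ 𝓝 p := isClosed_sphere.isOpen_compl.mem_nhds hpz
    filter_upwards [this] with q hq hq2
    exact hq hq2.1

theorem Gd.isOpen {z : ℂ} {G : Set ℂ} (h : Gd z G) : IsOpen (Sh z G) := by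
  have hK : IsCompact ((sphere z 1 \ G) + sphere (0 : ℂ) 1) :=
    ((isCompact_sphere z 1).of_isClosed_subset h.closed sdiff_subset).add (isCompact_sphere 0 1)
  have e : Sh z G = ((sphere z 1 \ G) + sphere (0 : ℂ) 1)ᶜ := by
    ext q
    simp only [Sh, mem_ofPred_eq, mem_compl_iff, Set.mem_add, not_exists, not_and]
    constructor
    · intro h p hp s hs hpq
      refine hp.2 (h p hp.1 ?_)
      rw [dist_comm, dist_eq_norm, ← hpq, add_sub_cancel_left]
      simpa using hs
    · intro h p hpz hpq
      by_contra hcon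
      refine h p ⟨hpz, hcon⟩ (q - p) ?_ (by ring)
      rw [mem_sphere, dist_eq_norm, sub_zero, ← dist_eq_norm, dist_comm]
      exact hpq
  rw [e]
  exact hK.isClosed.isOpen_compl

/-- every vector of length at most two is a sum of two unit vectors -/
theorem exists_cis_add {w : ℂ} (hw : ‖w‖ ≤ 2) : ∃ x y : ℝ, w = cis x + cis y := by
  by_cases h0 : w = 0
  · refine ⟨0, Real.pi, ?_⟩
    rw [h0]
    unfold cis
    simp [Complex.exp_pi_mul_I]
  · have hn : 0 < ‖w‖ := norm_pos_iff.2 h0
    set r := ‖w‖ with hr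
    have h1 : 0 ≤ 1 - (r / 2) ^ 2 := by nlinarith
    set s := Real.sqrt (1 - (r / 2) ^ 2) with hs
    have hs2 : s ^ 2 = 1 - (r / 2) ^ 2 := Real.sq_sqrt h1
    -- the two unit vectors
    have key : ∀ σ : ℝ, σ ^ 2 = 1 → ‖w / 2 + Complex.I * (w / r) * (σ * s : ℝ)‖ = 1 := by
      intro σ hσ
      have e1 : w / 2 + Complex.I * (w / r) * (σ * s : ℝ) =
          (w / r) * ((r / 2 : ℝ) + (σ * s : ℝ) * Complex.I) := by
        have : (r : ℂ) ≠ 0 := by exact_mod_cast hn.ne'
        push_cast
        field_simp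
      rw [e1, norm_mul, norm_div, Complex.norm_real, Real.norm_eq_abs, abs_of_pos hn, ← hr,
        div_self hn.ne', one_mul, Complex.norm_add_mul_I]
      rw [Real.sqrt_eq_one]
      nlinarith
    obtain ⟨x, hx⟩ := exists_cis (key 1 (by norm_num))
    obtain ⟨y, hy⟩ := exists_cis (key (-1) (by norm_num))
    refine ⟨x, y, ?_⟩
    rw [← hx, ← hy]
    push_cast
    ring

/-- the common points of the unit circles of `z` and of `z + cis x + cis y` -/
theorem common_cis {z p : ℂ} {x y : ℝ} (h0 : cis x + cis y ≠ 0) (hp : dist p z = 1)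
    (hq : dist p (z + (cis x + cis y)) = 1) : p = z + cis x ∨ p = z + cis y := by
  have hne : z ≠ z + (cis x + cis y) := fun h => h0 (by linear_combination -h)
  have d1 : dist (z + cis x) z = 1 := dist_add_cis z x
  have d2 : dist (z + cis y) z = 1 := dist_add_cis z y
  have d3 : dist (z + cis x) (z + (cis x + cis y)) = 1 := by
    rw [dist_comm, dist_eq_norm, show z + (cis x + cis y) - (z + cis x) = cis y by ring]
    exact norm_cis y
  have d4 : dist (z + cis y) (z + (cis x + cis y)) = 1 := by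
    rw [dist_comm, dist_eq_norm, show z + (cis x + cis y) - (z + cis y) = cis x by ring]
    exact norm_cis x
  by_cases hxy : z + cis x = z + cis y
  · -- tangent circles
    have hxy' : cis x = cis y := by linear_combination hxy
    left
    by_contra hpx
    have h1 : dist z (z + (cis x + cis y)) = 2 := by
      rw [dist_comm, dist_eq_norm, show z + (cis x + cis y) - z = 2 * cis x by rw [hxy']; ring,
        norm_mul, norm_cis]
      norm_num
    -- strict convexity
    have h2 : dist z p + dist p (z + (cis x + cis y)) = dist z (z + (cis x + cis y)) := by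
      rw [h1, dist_comm z p, hp, hq]; norm_num
    have h3 : dist z (z + cis x) + dist (z + cis x) (z + (cis x + cis y)) =
        dist z (z + (cis x + cis y)) := by
      rw [h1, dist_comm z _, d1, d3]; norm_num
    have h4 : p - z = cis x := by
      -- `|p - z| = |q - p| = 1`, `(p - z) + (q - p) = 2 cis x`
      have g1 : ‖p - z‖ = 1 := by rw [← dist_eq_norm]; exact hp
      have g2 : ‖2 * cis x - (p - z)‖ = 1 := by
        rw [show 2 * cis x - (p - z) = z + (cis x + cis y) - p by rw [← hxy']; ring,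
          ← dist_eq_norm, dist_comm]
        exact hq
      have g3 : ‖cis x‖ = 1 := norm_cis x
      have g4 := parallelogram_law_with_norm ℝ (cis x) (p - z - cis x)
      rw [show cis x + (p - z - cis x) = p - z by ring,
        show cis x - (p - z - cis x) = 2 * cis x - (p - z) by ring, g1, g2, g3] at g4
      have g5 : ‖p - z - cis x‖ = 0 := by nlinarith [norm_nonneg (p - z - cis x)]
      have := norm_eq_zero.1 g5
      linear_combination this
    exact hpx (by linear_combination h4)
  · exact EuclideanGeometry.eq_of_dist_eq_of_dist_eq_of_finrank_eq_two (V := ℂ)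
      Complex.finrank_real_complex hne hxy d1 d2 hp d3 d4 hq

theorem Gd.dense {z : ℂ} {G : Set ℂ} (h : Gd z G) : Dense (Sh z G) := by
  set A : Set ℂ := {p | dist p z = 1 ∧ p ∈ G} with hA
  have hcl : ∀ p, dist p z = 1 → p ∈ closure A := by
    intro p hp
    rw [mem_closure_iff_frequently]
    have h1 := (h.de p hp).and_eventually self_mem_nhdsWithin
    exact (h1.filter_mono nhdsWithin_le_nhds).mono fun q hq => ⟨hq.2, hq.1⟩
  -- first with the point `z` added
  have h1 : Dense (Sh z G ∪ {z}) := by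
    intro q
    by_cases hq : dist q z ≤ 2
    · obtain ⟨x, y, hxy⟩ := exists_cis_add (w := q - z) (by rw [← dist_eq_norm]; exact hq)
      have hF : Continuous fun v : ℂ × ℂ => v.1 + v.2 - z :=
        (continuous_fst.add continuous_snd).sub continuous_const
      have h2 := hF.closure_preimage_subset (Sh z G ∪ {z})
      have h3 : A ×ˢ A ⊆ (fun v : ℂ × ℂ => v.1 + v.2 - z) ⁻¹' (Sh z G ∪ {z}) := by
        rintro ⟨s, t⟩ ⟨⟨hs, hsG⟩, ht, htG⟩
        obtain ⟨x', hx'⟩ := exists_cis (u := s - z) (by rw [← dist_eq_norm]; exact hs)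
        obtain ⟨y', hy'⟩ := exists_cis (u := t - z) (by rw [← dist_eq_norm]; exact ht)
        have es : s = z + cis x' := by rw [← hx']; ring
        have et : t = z + cis y' := by rw [← hy']; ring
        have eq : s + t - z = z + (cis x' + cis y') := by rw [es, et]; ring
        by_cases h0 : cis x' + cis y' = 0
        · right
          show s + t - z = z
          rw [eq, h0, add_zero]
        · left
          intro p hpz hpq
          rw [show (fun v : ℂ × ℂ => v.1 + v.2 - z) (s, t) = s + t - z from rfl, eq] at hpq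
          rcases common_cis h0 hpz hpq with h5 | h5
          · rw [h5, ← es]; exact hsG
          · rw [h5, ← et]; exact htG
      have h4 : (z + cis x, z + cis y) ∈ (fun v : ℂ × ℂ => v.1 + v.2 - z) ⁻¹'
          closure (Sh z G ∪ {z}) := by
        refine h2 (closure_mono h3 ?_)
        rw [closure_prod_eq]
        exact ⟨hcl _ (dist_add_cis z x), hcl _ (dist_add_cis z y)⟩
      have h5 : z + cis x + (z + cis y) - z ∈ closure (Sh z G ∪ {z}) := h4
      rwa [show z + cis x + (z + cis y) - z = z + (cis x + cis y) by ring, ← hxy,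
        add_sub_cancel] at h5
    · refine subset_closure (Or.inl ?_)
      intro p hpz hpq
      exfalso
      apply hq
      have := dist_triangle_left q z p
      linarith
  refine (h1.sdiff_singleton z).mono ?_
  rintro q ⟨h2 | h2, h3⟩
  · exact h2
  · exact absurd h2 h3

/-- the points of `S(z)` at which the palette `Pal` is locally constant along `S(z)` -/
def Kc (U : Fin k → Set ℂ) (z : ℂ) : Set ℂ :=
  {p | ∀ᶠ q in 𝓝[sphere z 1] p, Pal U q = Pal U p}

/-- the points of `S(z)` at which the palette `T` is locally constant along `S(z)` -/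
def Kt (T : ℂ → Set (Fin k)) (z : ℂ) : Set ℂ :=
  {p | ∀ᶠ q in 𝓝[sphere z 1] p, T q = T p}

/-- an upper semicontinuous palette is locally constant on a relatively open dense set -/
theorem gd_of_usc (z : ℂ) (F : ℂ → Set (Fin k)) (hF : ∀ p, ∀ᶠ q in 𝓝 p, F q ⊆ F p) :
    Gd z {p | ∀ᶠ q in 𝓝[sphere z 1] p, F q = F p} where
  op p _ hp := by
    have hp' : ∀ᶠ q in 𝓝[sphere z 1] p, F q = F p := hp
    filter_upwards [eventually_eventually_nhdsWithin.2 hp', hp'] with q hq hq'
    show ∀ᶠ w in 𝓝[sphere z 1] q, F w = F q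
    filter_upwards [hq] with w hw
    rw [hw, hq']
  de p hp := by
    intro hcon
    rw [eventually_nhdsWithin_iff] at hcon
    obtain ⟨O, hO, hOo, hpO⟩ := _root_.mem_nhds_iff.1 hcon
    have hne : ((fun q => (F q).ncard) '' (O ∩ sphere z 1)).Nonempty :=
      ⟨_, p, ⟨hpO, hp⟩, rfl⟩
    obtain ⟨_, ⟨r, hr, rfl⟩, hrmin⟩ :=
      WellFounded.has_min (r := ((· < ·) : ℕ → ℕ → Prop)) wellFounded_lt _ hne
    refine hO hr.1 hr.2 ?_
    show ∀ᶠ w in 𝓝[sphere z 1] r, F w = F r
    filter_upwards [mem_nhdsWithin_of_mem_nhds (hF r), self_mem_nhdsWithin,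
      mem_nhdsWithin_of_mem_nhds (hOo.mem_nhds hr.1)] with w hw hwz hwO
    refine Set.eq_of_subset_of_ncard_le hw ?_ (Set.toFinite _)
    exact not_lt.1 (hrmin _ ⟨w, ⟨hwO, hwz⟩, rfl⟩)

theorem gd_Kc (U : Fin k → Set ℂ) (z : ℂ) : Gd z (Kc U z) := gd_of_usc z _ (pal_nhd U)

theorem Irr.gd_Kt (h : Irr U T) (z : ℂ) : Gd z (Kt T z) := gd_of_usc z _ h.nhd

/-- **the list of a generic point**: its palette is disjoint from the palettes of the common points -/
theorem Mx.sh_pal (h : Mx U) {z q p : ℂ} (hq : q ∈ Sh z (Kc U z)) (h0 : q ≠ z)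
    (h2 : dist q z < 2) (hp : dist p z = 1) (hpq : dist p q = 1) :
    Disjoint (Pal U p) (Pal U q) := by
  have h1 : ∀ᶠ w in 𝓝[sphere z 1] p, Pal U w = Pal U p := hq p hp hpq
  refine h.shell2 hp (h1.mono fun w hw => hw.symm.subset) hpq h0 fun h3 => ?_
  have h4 : q - z = 2 * (p - z) := by linear_combination h3
  rw [dist_eq_norm, h4, norm_mul, ← dist_eq_norm, hp] at h2
  norm_num at h2

/-- the same for the palettes `T` -/
theorem Irr.sh_T (h : Irr U T) {z q p : ℂ} (hq : q ∈ Sh z (Kt T z)) (h0 : q ≠ z)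
    (h2 : dist q z < 2) (hp : dist p z = 1) (hpq : dist p q = 1) :
    Disjoint (T p) (Pal U q) := by
  have h1 : ∀ᶠ w in 𝓝[sphere z 1] p, T w = T p := hq p hp hpq
  refine h.mx.shell2 hp (h1.mono fun w hw => hw.symm.subset.trans (h.sub w)) hpq h0 fun h3 => ?_
  have h4 : q - z = 2 * (p - z) := by linear_combination h3
  rw [dist_eq_norm, h4, norm_mul, ← dist_eq_norm, hp] at h2
  norm_num at h2

/-- **generic parameters**: finitely many open continuous maps into finitely many dense open sets -/
theorem dense_params {X ι κ : Type*} [TopologicalSpace X] [Finite ι] [Finite κ] {φ : ι → X → ℂ}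
    (hc : ∀ i, Continuous (φ i)) (ho : ∀ i, IsOpenMap (φ i)) {Q : κ → Set ℂ}
    (hQ : ∀ j, IsOpen (Q j)) (hQd : ∀ j, Dense (Q j)) :
    Dense {x | ∀ i j, φ i x ∈ Q j} ∧ IsOpen {x | ∀ i j, φ i x ∈ Q j} := by
  have h1 := dense_open_inter (X := X) (ι := ι × κ) (S := fun a => φ a.1 ⁻¹' Q a.2)
    (fun a => (hQ a.2).preimage (hc a.1)) (fun a => (hQd a.2).preimage (ho a.1))
  have e : (⋂ a : ι × κ, φ a.1 ⁻¹' Q a.2) = {x | ∀ i j, φ i x ∈ Q j} := by
    ext x; simp
  rwa [e] at h1

/-- the points which are pure, not a given centre, and have generic common points with the circles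
of finitely many centres -/
theorem Irr.dense_lists {κ : Type*} [Finite κ] (h : Irr U T) (z : κ → ℂ) :
    Dense {q | (∃ i, T q = {i}) ∧ ∀ j, q ≠ z j ∧ q ∈ Sh (z j) (Kc U (z j)) ∧
      q ∈ Sh (z j) (Kt T (z j))} ∧
    IsOpen {q | (∃ i, T q = {i}) ∧ ∀ j, q ≠ z j ∧ q ∈ Sh (z j) (Kc U (z j)) ∧
      q ∈ Sh (z j) (Kt T (z j))} := by
  have h1 := dense_open_inter (X := ℂ) (ι := κ)
    (S := fun j => {z j}ᶜ ∩ (Sh (z j) (Kc U (z j)) ∩ Sh (z j) (Kt T (z j))))
    (fun j => isOpen_compl_singleton.inter ((gd_Kc U _).isOpen.inter (h.gd_Kt _).isOpen))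
    (fun j => (dense_compl_singleton _).inter_of_isOpen_left
      ((gd_Kc U _).dense.inter_of_isOpen_left (h.gd_Kt _).dense (gd_Kc U _).isOpen)
      isOpen_compl_singleton)
  have h2 := h.pure_open_dense
  have e : {q | (∃ i, T q = {i}) ∧ ∀ j, q ≠ z j ∧ q ∈ Sh (z j) (Kc U (z j)) ∧
      q ∈ Sh (z j) (Kt T (z j))} = {x | ∃ i, T x = {i}} ∩
      ⋂ j, ({z j}ᶜ ∩ (Sh (z j) (Kc U (z j)) ∩ Sh (z j) (Kt T (z j)))) := by
    ext q; simp
  rw [e]
  exact ⟨h2.1.inter_of_isOpen_left h1.1 h2.2, h2.2.inter h1.2⟩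

/-! ## angles and points of the circle -/

theorem cis_within (z : ℂ) (t : ℝ) :
    Tendsto (fun s : ℝ => z + cis s) (𝓝 t) (𝓝[sphere z 1] (z + cis t)) :=
  tendsto_nhdsWithin_iff.2 ⟨(continuous_const.add continuous_cis).tendsto t,
    Eventually.of_forall fun s => dist_add_cis z s⟩

theorem cis_add' (s t : ℝ) : cis (s + t) = cis s * cis t := by
  unfold cis; rw [← Complex.exp_add]; congr 1; push_cast; ring

/-- a property of the points of `S(z)` near `z + cis t` is a property of the angles near `t` -/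
theorem ev_sphere {z : ℂ} {t : ℝ} {P : ℂ → Prop} :
    (∀ᶠ q in 𝓝[sphere z 1] (z + cis t), P q) ↔ ∀ᶠ s in 𝓝 t, P (z + cis s) := by
  refine ⟨fun h => (cis_within z t).eventually h, fun h => ?_⟩
  have hne : cis t ≠ 0 := by
    intro h0
    have := norm_cis t
    rw [h0, norm_zero] at this
    norm_num at this
  have h1 : Tendsto (fun q : ℂ => t + ((q - z) / cis t).arg) (𝓝 (z + cis t)) (𝓝 t) := by
    have h2 : ContinuousAt (fun q : ℂ => t + ((q - z) / cis t).arg) (z + cis t) := by
      refine continuousAt_const.add ?_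
      refine ContinuousAt.comp (g := Complex.arg) ?_ ?_
      · rw [add_sub_cancel_left, div_self hne]
        exact Complex.continuousAt_arg (by simp [Complex.slitPlane])
      · exact ((continuous_id.sub continuous_const).div_const _).continuousAt
    have h3 : t + (((z + cis t) - z) / cis t).arg = t := by
      rw [add_sub_cancel_left, div_self hne]; simp
    have h4 := h2.tendsto
    rwa [h3] at h4
  rw [eventually_nhdsWithin_iff]
  filter_upwards [h1.eventually h] with q hq hqz
  have hqz : dist q z = 1 := hqz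
  have h5 : cis (t + ((q - z) / cis t).arg) = q - z := by
    rw [cis_add']
    have h6 : ‖(q - z) / cis t‖ = 1 := by
      rw [norm_div, norm_cis, ← dist_eq_norm, hqz, div_one]
    have h7 := Complex.norm_mul_exp_arg_mul_I ((q - z) / cis t)
    rw [h6] at h7
    have h8 : cis ((q - z) / cis t).arg = (q - z) / cis t := by
      rw [Complex.ofReal_one, one_mul] at h7
      exact h7
    rw [h8]
    field_simp
  rw [h5, add_sub_cancel] at hq
  exact hq

end Vale.Agent.P032.Six

namespace Vale.Agent.P032.S5.H767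

open Vale.Agent.P032.Six

variable {U : Fin 6 → Set ℂ} {T : ℂ → Set (Fin 6)} {z : ℂ} {a b c d e f : Fin 6}

/-- the points of `S(z)` near which a letter is carried -/
theorem Ctr.gd_letter (C : Ctr U T z a b c d e f) :
    Gd z {p | ∃ l, Car T z a b c d e f l p} where
  op p _ hp := by
    obtain ⟨l, hl⟩ := hp
    have hl' : ∀ᶠ q in 𝓝[sphere z 1] p, q ∈ Lt T z a b c d e f l := hl
    filter_upwards [eventually_eventually_nhdsWithin.2 hl'] with q hq
    exact ⟨l, hq⟩
  de p hp := by
    obtain ⟨t, ht⟩ := exists_cis (u := p - z) (by rw [← dist_eq_norm]; exact hp)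
    have ep : p = z + cis t := by rw [← ht]; ring
    have h1 : ∃ᶠ s in 𝓝 t, s ∈ genL T z a b c d e f :=
      mem_closure_iff_frequently.1 (C.dense_genL t)
    rw [ep]
    refine (cis_within z t).frequently ?_
    refine h1.mono ?_
    rintro s ⟨l, hl⟩
    exact ⟨l, ev_sphere.2 hl⟩

/-- **the list of a generic point from the letters of a four-coloured centre** -/
theorem Ctr.sh_letter (C : Ctr U T z a b c d e f) {q p : ℂ}
    (hq : q ∈ Sh z {p | ∃ l, Car T z a b c d e f l p}) (h0 : q ≠ z) (h2 : dist q z < 2)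
    (hp : dist p z = 1) (hpq : dist p q = 1) :
    ∃ l, Car T z a b c d e f l p ∧ Disjoint (col a b c d e f l) (Pal U q) := by
  obtain ⟨l, hl⟩ := hq p hp hpq
  refine ⟨l, hl, hl.shell C.irr hp hpq h0 fun h3 => ?_⟩
  have h4 : q - z = 2 * (p - z) := by linear_combination h3
  rw [dist_eq_norm, h4, norm_mul, ← dist_eq_norm, hp] at h2
  norm_num at h2

/-- the generic points for two four-coloured centres -/
def Ls (T : ℂ → Set (Fin 6)) (z : ℂ) (a b c d e f : Fin 6) : Set ℂ :=
  {q | q ≠ z ∧ q ∈ Sh z {p | ∃ l, Car T z a b c d e f l p}}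

theorem Ctr.ls_open (C : Ctr U T z a b c d e f) : IsOpen (Ls T z a b c d e f) :=
  isOpen_ne.inter C.gd_letter.isOpen

theorem Ctr.ls_dense (C : Ctr U T z a b c d e f) : Dense (Ls T z a b c d e f) :=
  (dense_compl_singleton z).inter_of_isOpen_left C.gd_letter.dense isOpen_compl_singleton

/-- a pure point `q` of colour `i` in `Ls`, at distance less than two of the centre: at every common
point of the circles a letter without the colour `i` is carried -/
theorem Ctr.ls_letter (C : Ctr U T z a b c d e f) {q p : ℂ} {i : Fin 6}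
    (hq : q ∈ Ls T z a b c d e f) (h2 : dist q z < 2) (hp : dist p z = 1) (hpq : dist p q = 1)
    (hi : i ∈ Pal U q) : ∃ l, Car T z a b c d e f l p ∧ i ∉ col a b c d e f l := by
  obtain ⟨l, h3, h4⟩ := C.sh_letter hq.2 hq.1 h2 hp hpq
  exact ⟨l, h3, fun h5 => Set.disjoint_left.1 h4 h5 hi⟩

/-- **two-centre lists**: for two four-coloured centres and finitely many open continuous maps
`φ i : X → ℂ`, on a dense open set of parameters all `φ i x` are pure and have lists from the letters
of both centres -/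
theorem Ctr.lists_two {X ι : Type*} [TopologicalSpace X] [Finite ι] {φ : ι → X → ℂ}
    (hc : ∀ i, Continuous (φ i)) (ho : ∀ i, IsOpenMap (φ i)) (C : Ctr U T z a b c d e f)
    {z' : ℂ} {a' b' c' d' e' f' : Fin 6} (C' : Ctr U T z' a' b' c' d' e' f') :
    Dense {x | ∀ i, (∃ m, T (φ i x) = {m}) ∧ φ i x ∈ Ls T z a b c d e f ∧
      φ i x ∈ Ls T z' a' b' c' d' e' f'} ∧
    IsOpen {x | ∀ i, (∃ m, T (φ i x) = {m}) ∧ φ i x ∈ Ls T z a b c d e f ∧
      φ i x ∈ Ls T z' a' b' c' d' e' f'} := by
  have h1 := C.irr.pure_open_dense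
  have h3 := dense_params hc ho (κ := Unit) (Q := fun _ => {x | ∃ i, T x = {i}} ∩
      (Ls T z a b c d e f ∩ Ls T z' a' b' c' d' e' f'))
    (fun _ => h1.2.inter (C.ls_open.inter C'.ls_open))
    (fun _ => h1.1.inter_of_isOpen_left (C.ls_dense.inter_of_isOpen_left C'.ls_dense C.ls_open) h1.2)
  have e : {x | ∀ i, (∃ m, T (φ i x) = {m}) ∧ φ i x ∈ Ls T z a b c d e f ∧
      φ i x ∈ Ls T z' a' b' c' d' e' f'} = {x | ∀ i, ∀ j : Unit, φ i x ∈
      (fun _ => {x | ∃ i, T x = {i}} ∩ (Ls T z a b c d e f ∩ Ls T z' a' b' c' d' e' f') :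
        Unit → Set ℂ) j} := by
    ext x
    simp only [mem_ofPred_eq, mem_inter_iff]
    exact ⟨fun h i _ => h i, fun h i => h i ()⟩
  rw [e]
  exact h3

end Vale.Agent.P032.S5.H767
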